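import Vale.Agent.P309.Learner

/-!
Definitions for the finite precision Kaczmarz learner.
-/

open MeasureTheory ProbabilityTheory Real Set Filter Topology
open scoped RealInnerProductSpace ENNReal

namespace Vale.Agent.P309K

open Vale.Agent.P309

variable {d : ℕ}

/-- The Kaczmarz step: the orthogonal projection of `z` on the hyperplane `⟪x, ·⟫ = y`. -/
noncomputable def kstep (z x : E d) (y : ℝ) : E d := z + ((y - ⟪x, z⟫) / ‖x‖ ^ 2) • x

/-- Grid indices: `d` coordinates, each with `2 N + 1` values. -/
abbrev Grid (d N : ℕ) := Fin d → Fin (2 * N + 1)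

/-- The value of one grid coordinate: `η * (i - N)`. -/
noncomputable def gval (η : ℝ) (N : ℕ) (i : Fin (2 * N + 1)) : ℝ := η * (((i : ℕ) : ℝ) - (N : ℝ))

/-- The grid point with a given index. -/
noncomputable def gpt (η : ℝ) (N : ℕ) (i : Grid d N) : E d :=
  WithLp.toLp 2 fun l => gval η N (i l)

/-- Rounding of a real number down to the grid, clamped to the range of the grid. -/
noncomputable def rnd1 (η : ℝ) (N : ℕ) (t : ℝ) : Fin (2 * N + 1) :=
  ⟨min (2 * N) (⌊t / η⌋ + (N : ℤ)).toNat, by omega⟩

/-- Rounding of a vector to the grid, coordinate by coordinate. -/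
noncomputable def rnd (η : ℝ) (N : ℕ) (w : E d) : Grid d N := fun l => rnd1 η N (w l)

end Vale.Agent.P309K
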