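import Vale.Agent.P309K.Defs

open MeasureTheory ProbabilityTheory Real Set Filter Topology
open scoped RealInnerProductSpace ENNReal

namespace Vale.Agent.P309K

open Vale.Agent.P309

variable {d : ℕ}

theorem measurable_inner_sq_div (w : E d) :
    Measurable fun x : E d => ⟪x, w⟫ ^ 2 / ‖x‖ ^ 2 :=
  (((continuous_id.inner continuous_const).measurable).pow_const 2).div
    (measurable_norm.pow_const 2)

theorem integrable_inner_sq_div (w : E d) :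
    Integrable (fun x : E d => ⟪x, w⟫ ^ 2 / ‖x‖ ^ 2) (stdGaussian (E d)) := by
  refine Integrable.of_bound (measurable_inner_sq_div w).aestronglyMeasurable (‖w‖ ^ 2)
    (Filter.Eventually.of_forall fun x => ?_)
  rw [Real.norm_eq_abs, abs_of_nonneg (by positivity)]
  by_cases hx : x = 0
  · simp [hx]
  · have hx0 : 0 < ‖x‖ ^ 2 := by positivity
    rw [div_le_iff₀ hx0]
    have h := abs_real_inner_le_norm x w
    have h2 : ⟪x, w⟫ ^ 2 ≤ (‖x‖ * ‖w‖) ^ 2 := by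
      rw [← sq_abs]
      exact pow_le_pow_left₀ (abs_nonneg _) h 2
    nlinarith

theorem iso_invariant (R : E d ≃ₗᵢ[ℝ] E d) (w : E d) :
    ∫ x, ⟪x, R w⟫ ^ 2 / ‖x‖ ^ 2 ∂(stdGaussian (E d)) =
      ∫ x, ⟪x, w⟫ ^ 2 / ‖x‖ ^ 2 ∂(stdGaussian (E d)) := by
  have h : ∫ x, ⟪x, R w⟫ ^ 2 / ‖x‖ ^ 2 ∂(stdGaussian (E d)) =
      ∫ x, ⟪R x, R w⟫ ^ 2 / ‖R x‖ ^ 2 ∂(stdGaussian (E d)) := by
    conv_lhs => rw [← stdGaussian_map R]
    exact integral_map R.continuous.measurable.aemeasurable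
      (measurable_inner_sq_div (R w)).aestronglyMeasurable
  rw [h]
  simp only [R.inner_map_map, R.norm_map]

theorem iso_unit {u v : E d} (hu : ‖u‖ = 1) (hv : ‖v‖ = 1) :
    ∫ x, ⟪x, u⟫ ^ 2 / ‖x‖ ^ 2 ∂(stdGaussian (E d)) =
      ∫ x, ⟪x, v⟫ ^ 2 / ‖x‖ ^ 2 ∂(stdGaussian (E d)) := by
  have hn : ‖v‖ = ‖u‖ := by rw [hu, hv]
  have hR := Submodule.reflection_sub hn
  have h := iso_invariant ((ℝ ∙ (v - u))ᗮ.reflection) v
  rw [hR] at h
  exact h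

theorem sum_iso (hd : 0 < d) :
    ∑ i : Fin d, ∫ x, ⟪x, (EuclideanSpace.basisFun (Fin d) ℝ) i⟫ ^ 2 / ‖x‖ ^ 2 ∂(stdGaussian (E d)) = 1 := by
  rw [← integral_finsetSum _ (fun i _ => integrable_inner_sq_div _)]
  haveI : Nonempty (Fin d) := ⟨⟨0, hd⟩⟩
  have hae : ∀ᵐ x ∂(stdGaussian (E d)),
      ∑ i : Fin d, ⟪x, (EuclideanSpace.basisFun (Fin d) ℝ) i⟫ ^ 2 / ‖x‖ ^ 2 = 1 := by
    filter_upwards [ae_ne_zero (Y := E d)] with x hx
    rw [← Finset.sum_div]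
    have h0 : ‖x‖ ^ 2 ≠ 0 := by positivity
    rw [div_eq_one_iff_eq h0]
    have h := (EuclideanSpace.basisFun (Fin d) ℝ).sum_sq_norm_inner_left x
    rw [← h]
    refine Finset.sum_congr rfl fun i _ => ?_
    rw [Real.norm_eq_abs, sq_abs, real_inner_comm]
  rw [integral_congr_ae hae]
  simp

/-- MODULE K1. Isotropy: `f w = ∫ ⟪x,w⟫²/‖x‖²` is invariant under isometries (`stdGaussian_map`, reflection `reflection_sub` between two
vectors of the same norm), homogeneous of degree two, and `∑ i, f (e i) = ∫ 1 = 1` by `ae_ne_zero` (orthonormal basis `EuclideanSpace.basisFun`). -/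
theorem integral_inner_sq_div (hd : 0 < d) (w : E d) :
    ∫ x, ⟪x, w⟫ ^ 2 / ‖x‖ ^ 2 ∂(stdGaussian (E d)) = ‖w‖ ^ 2 / (d : ℝ) := by
  have hd0 : (d : ℝ) ≠ 0 := by exact_mod_cast hd.ne'
  by_cases hw : w = 0
  · simp [hw]
  have hw0 : ‖w‖ ≠ 0 := norm_ne_zero_iff.2 hw
  set u : E d := (‖w‖⁻¹ : ℝ) • w with hu_def
  have hu : ‖u‖ = 1 := by
    rw [hu_def, norm_smul, norm_inv, norm_norm, inv_mul_cancel₀ hw0]
  have hwu : w = ‖w‖ • u := by
    rw [hu_def, smul_smul, mul_inv_cancel₀ hw0, one_smul]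
  have hsum := sum_iso hd
  have hconst : ∀ i : Fin d, ∫ x, ⟪x, (EuclideanSpace.basisFun (Fin d) ℝ) i⟫ ^ 2 / ‖x‖ ^ 2 ∂(stdGaussian (E d)) =
      ∫ x, ⟪x, u⟫ ^ 2 / ‖x‖ ^ 2 ∂(stdGaussian (E d)) := fun i =>
    iso_unit ((EuclideanSpace.basisFun (Fin d) ℝ).norm_eq_one i) hu
  simp_rw [hconst] at hsum
  rw [Finset.sum_const, Finset.card_univ, Fintype.card_fin, nsmul_eq_mul] at hsum
  have hfu : ∫ x, ⟪x, u⟫ ^ 2 / ‖x‖ ^ 2 ∂(stdGaussian (E d)) = 1 / (d : ℝ) := by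
    field_simp
    linarith
  have hscale : ∀ x : E d, ⟪x, w⟫ ^ 2 / ‖x‖ ^ 2 = ‖w‖ ^ 2 * (⟪x, u⟫ ^ 2 / ‖x‖ ^ 2) := by
    intro x
    conv_lhs => rw [hwu, inner_smul_right]
    ring
  simp_rw [hscale]
  rw [integral_const_mul, hfu]
  ring

/-- The Kaczmarz step is an orthogonal projection on a hyperplane through `s`; also true for `x = 0` where both sides are `‖z - s‖²`. -/
theorem kstep_sub_sq (s z x : E d) :
    ‖kstep z x ⟪x, s⟫ - s‖ ^ 2 = ‖z - s‖ ^ 2 - ⟪x, z - s⟫ ^ 2 / ‖x‖ ^ 2 := by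
  by_cases hx : x = 0
  · simp [hx, kstep]
  have hx0 : ‖x‖ ^ 2 ≠ 0 := by positivity
  have e : kstep z x ⟪x, s⟫ - s = (z - s) - (⟪x, z - s⟫ / ‖x‖ ^ 2) • x := by
    unfold kstep
    rw [inner_sub_right, show ((⟪x, s⟫ - ⟪x, z⟫) / ‖x‖ ^ 2) = -((⟪x, z⟫ - ⟪x, s⟫) / ‖x‖ ^ 2) by ring,
      neg_smul]
    abel
  rw [e, norm_sub_sq_real, inner_smul_right, norm_smul, Real.norm_eq_abs, mul_pow, sq_abs,
    real_inner_comm x (z - s)]
  field_simp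
  ring

theorem integrable_kstep (s z : E d) :
    Integrable (fun x => ‖kstep z x ⟪x, s⟫ - s‖ ^ 2) (stdGaussian (E d)) := by
  simp_rw [kstep_sub_sq]
  exact (integrable_const _).sub (integrable_inner_sq_div _)

theorem integral_kstep (hd : 0 < d) (s z : E d) :
    ∫ x, ‖kstep z x ⟪x, s⟫ - s‖ ^ 2 ∂(stdGaussian (E d)) = (1 - 1 / (d : ℝ)) * ‖z - s‖ ^ 2 := by
  simp_rw [kstep_sub_sq]
  rw [integral_sub (integrable_const _) (integrable_inner_sq_div _), integral_inner_sq_div hd]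
  simp
  ring

end Vale.Agent.P309K
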