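import Vale.Agent.P309K.Round
import Vale.Agent.P309K.Iso

open MeasureTheory ProbabilityTheory Real Set Filter Topology
open scoped RealInnerProductSpace ENNReal

namespace Vale.Agent.P309K

open Vale.Agent.P309

variable {d : ℕ}

lemma measurable_kstep (z : E d) : Measurable fun p : E d × ℝ => kstep z p.1 p.2 := by
  unfold kstep
  have h1 : Measurable fun p : E d × ℝ => (⟪p.1, z⟫ : ℝ) :=
    (continuous_fst.inner continuous_const).measurable
  have h2 : Measurable fun p : E d × ℝ => ‖p.1‖ ^ 2 := (measurable_fst.norm).pow_const 2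
  have h3 : Measurable fun p : E d × ℝ => (p.2 - ⟪p.1, z⟫) / ‖p.1‖ ^ 2 :=
    (measurable_snd.sub h1).div h2
  have h4 : Measurable fun p : E d × ℝ => ((p.2 - ⟪p.1, z⟫) / ‖p.1‖ ^ 2) • p.1 :=
    h3.smul measurable_fst
  exact Measurable.const_add h4 z

/-- The middle point of the grid, whose value is the origin. -/
def gcenter (d N : ℕ) : Grid d N := fun _ => ⟨N, by omega⟩

lemma gpt_center (η : ℝ) (d N : ℕ) : gpt η N (gcenter d N) = (0 : E d) := by
  ext l
  simp [gpt, gcenter, gval]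

open Classical in
/-- The finite precision Kaczmarz learner: the state is a point of a grid, the update is the Kaczmarz step
followed by rounding to the grid, the output is the direction of the state. -/
noncomputable def kLearner (d N : ℕ) (η : ℝ) : Learner d (Grid d N) where
  init i := if i = gcenter d N then 1 else 0
  init_nonneg i := by split_ifs <;> norm_num
  init_sum := by simp
  trans _ v x y v' := if rnd η N (kstep (gpt η N v) x y) = v' then 1 else 0
  trans_meas _ v v' := by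
    have h1 : Measurable fun p : E d × ℝ => rnd (d := d) η N (kstep (gpt η N v) p.1 p.2) :=
      (measurable_rnd η N).comp (measurable_kstep _)
    exact Measurable.ite (h1 (MeasurableSet.singleton v')) measurable_const measurable_const
  trans_nonneg _ v x y v' := by split_ifs <;> norm_num
  trans_sum _ v x y := by simp
  output v := Measure.dirac (((‖gpt η N v‖⁻¹ : ℝ)) • gpt η N v)
  output_prob _ := inferInstance

/-- The second moment of the error. -/
noncomputable def errM (N : ℕ) (η : ℝ) (t : ℕ) (s : E d) : ℝ :=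
  ∑ v, (kLearner d N η).law t s v * ‖gpt η N v - s‖ ^ 2

lemma errM_zero (N : ℕ) (η : ℝ) {s : E d} (hs : ‖s‖ = 1) : errM N η 0 s = 1 := by
  classical
  unfold errM
  have : ∀ v : Grid d N, (kLearner d N η).law 0 s v = if v = gcenter d N then 1 else 0 := fun v => rfl
  simp only [this, ite_mul, one_mul, zero_mul, Finset.sum_ite_eq', Finset.mem_univ, if_true,
    gpt_center, zero_sub, norm_neg, hs]
  norm_num

/-- One step of the recursion. -/
lemma errM_succ (hd : 1 ≤ d) {N : ℕ} {η : ℝ} (hη : 0 < η) (hN : 1 ≤ N * η) (t : ℕ) {s : E d}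
    (hs : ‖s‖ = 1) :
    errM N η (t + 1) s ≤ (1 - 1 / (2 * (d : ℝ))) * errM N η t s + (1 + 2 * (d : ℝ)) * d * η ^ 2 := by
  classical
  have hd0 : (1 : ℝ) ≤ d := by exact_mod_cast hd
  set L := kLearner d N η with hL
  set D : Grid d N → ℝ := fun v => ‖gpt η N v - s‖ ^ 2 with hD
  set c : ℝ := (1 + 2 * (d : ℝ)) * d * η ^ 2 with hc
  set ρ : ℝ := 1 - 1 / (2 * (d : ℝ)) with hρ
  set U : Grid d N → E d → Grid d N := fun v x => rnd η N (kstep (gpt η N v) x ⟪x, s⟫) with hU
  have htr : ∀ v v' x, L.trans t v x ⟪x, s⟫ v' = if U v x = v' then 1 else 0 := fun v v' x => rfl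
  have hDU : ∀ v x, ∑ v', (L.trans t v x ⟪x, s⟫ v') * D v' = D (U v x) := by
    intro v x
    simp only [htr, ite_mul, one_mul, zero_mul, Finset.sum_ite_eq, Finset.mem_univ, if_true]
  have hint : ∀ v, Integrable (fun x => D (U v x)) (stdGaussian (E d)) := by
    intro v
    have : (fun x => D (U v x)) = fun x => ∑ v', (L.trans t v x ⟪x, s⟫ v') * D v' := by
      funext x
      rw [hDU]
    rw [this]
    exact integrable_finsetSum _ fun v' _ => (L.integrable_trans t v v' s).mul_const _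
  have hint2 : ∀ v, ∫ x, D (U v x) ∂(stdGaussian (E d)) ≤ ρ * D v + c := by
    intro v
    set α : ℝ := 1 / (2 * (d : ℝ)) with hα
    have hα0 : 0 < α := by positivity
    have hk := integrable_kstep s (gpt η N v)
    have hle : ∀ x, D (U v x) ≤
        (1 + α) * ‖kstep (gpt η N v) x ⟪x, s⟫ - s‖ ^ 2 + (1 + 1 / α) * d * η ^ 2 := fun x =>
      rnd_sq hη hN hs.le _ hα0
    calc _ ≤ ∫ x, ((1 + α) * ‖kstep (gpt η N v) x ⟪x, s⟫ - s‖ ^ 2 + (1 + 1 / α) * d * η ^ 2)
          ∂(stdGaussian (E d)) :=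
          integral_mono (hint v) ((hk.const_mul _).add (integrable_const _)) hle
      _ = (1 + α) * ((1 - 1 / (d : ℝ)) * D v) + (1 + 1 / α) * d * η ^ 2 := by
          rw [integral_add (hk.const_mul _) (integrable_const _), integral_const_mul,
            integral_kstep (by omega)]
          have h9 : ∫ _ : E d, (1 + 1 / α) * d * η ^ 2 ∂(stdGaussian (E d)) = (1 + 1 / α) * d * η ^ 2 := by
            simp
          rw [h9]
      _ ≤ _ := by
          have e1 : 1 / α = 2 * (d : ℝ) := by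
            rw [hα]
            field_simp
          rw [e1]
          have hDv : 0 ≤ D v := by positivity
          have e2 : (1 + α) * (1 - 1 / (d : ℝ)) ≤ ρ := by
            rw [hρ, hα]
            have h3 : (1 + 1 / (2 * (d : ℝ))) * (1 - 1 / (d : ℝ)) =
                1 - 1 / (2 * (d : ℝ)) - 1 / (2 * (d : ℝ) ^ 2) := by
              field_simp
              ring
            rw [h3]
            have : 0 ≤ 1 / (2 * (d : ℝ) ^ 2) := by positivity
            linarith
          have e3 := mul_le_mul_of_nonneg_right e2 hDv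
          rw [hc]
          nlinarith
  have hexp : errM N η (t + 1) s =
      ∑ v, L.law t s v * ∫ x, D (U v x) ∂(stdGaussian (E d)) := by
    unfold errM
    simp only [Learner.law_succ]
    calc ∑ v', (∑ v, L.law t s v * ∫ x, L.trans t v x ⟪x, s⟫ v' ∂(stdGaussian (E d))) * D v'
        = ∑ v', ∑ v, L.law t s v * ((∫ x, L.trans t v x ⟪x, s⟫ v' ∂(stdGaussian (E d))) * D v') := by
          refine Finset.sum_congr rfl fun v' _ => ?_
          rw [Finset.sum_mul]
          refine Finset.sum_congr rfl fun v _ => ?_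
          ring
      _ = ∑ v, ∑ v', L.law t s v * ((∫ x, L.trans t v x ⟪x, s⟫ v' ∂(stdGaussian (E d))) * D v') :=
          Finset.sum_comm
      _ = _ := by
          refine Finset.sum_congr rfl fun v _ => ?_
          rw [← Finset.mul_sum]
          congr 1
          calc ∑ i, (∫ x, L.trans t v x ⟪x, s⟫ i ∂(stdGaussian (E d))) * D i
              = ∑ i, ∫ x, L.trans t v x ⟪x, s⟫ i * D i ∂(stdGaussian (E d)) := by
                simp only [integral_mul_const]
            _ = ∫ x, ∑ i, L.trans t v x ⟪x, s⟫ i * D i ∂(stdGaussian (E d)) :=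
                (integral_finsetSum _ fun i _ => (L.integrable_trans t v i s).mul_const _).symm
            _ = _ := by simp only [hDU]
  rw [hexp]
  calc _ ≤ ∑ v, L.law t s v * (ρ * D v + c) :=
        Finset.sum_le_sum fun v _ => mul_le_mul_of_nonneg_left (hint2 v) (L.law_nonneg t s v)
    _ = ρ * errM N η t s + c * ∑ v, L.law t s v := by
        unfold errM
        rw [Finset.mul_sum, Finset.mul_sum, ← Finset.sum_add_distrib]
        refine Finset.sum_congr rfl fun v _ => ?_
        ring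
    _ = _ := by rw [L.law_sum, mul_one]

/-- The recursion solved. -/
lemma errM_le (hd : 1 ≤ d) {N : ℕ} {η : ℝ} (hη : 0 < η) (hN : 1 ≤ N * η) (t : ℕ) {s : E d}
    (hs : ‖s‖ = 1) :
    errM N η t s ≤ (1 - 1 / (2 * (d : ℝ))) ^ t + 2 * (d : ℝ) * ((1 + 2 * (d : ℝ)) * d * η ^ 2) := by
  have hd0 : (1 : ℝ) ≤ d := by exact_mod_cast hd
  have hρ0 : 0 ≤ 1 - 1 / (2 * (d : ℝ)) := by
    have : 1 / (2 * (d : ℝ)) ≤ 1 := by
      rw [div_le_one (by positivity)]
      linarith
    linarith
  induction t with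
  | zero =>
    rw [errM_zero N η hs, pow_zero]
    have : 0 ≤ 2 * (d : ℝ) * ((1 + 2 * (d : ℝ)) * d * η ^ 2) := by positivity
    linarith
  | succ t ih =>
    refine (errM_succ hd hη hN t hs).trans ?_
    have h1 := mul_le_mul_of_nonneg_left ih hρ0
    have e : (1 - 1 / (2 * (d : ℝ))) * (2 * (d : ℝ) * ((1 + 2 * (d : ℝ)) * d * η ^ 2)) +
        (1 + 2 * (d : ℝ)) * d * η ^ 2 = 2 * (d : ℝ) * ((1 + 2 * (d : ℝ)) * d * η ^ 2) := by
      field_simp
      ring
    have e2 : (1 - 1 / (2 * (d : ℝ))) * ((1 - 1 / (2 * (d : ℝ))) ^ t +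
        2 * (d : ℝ) * ((1 + 2 * (d : ℝ)) * d * η ^ 2)) =
        (1 - 1 / (2 * (d : ℝ))) ^ (t + 1) +
          (1 - 1 / (2 * (d : ℝ))) * (2 * (d : ℝ) * ((1 + 2 * (d : ℝ)) * d * η ^ 2)) := by
      rw [pow_succ' (1 - 1 / (2 * (d : ℝ))) t]
      ring
    linarith

/-- The success probability from the second moment: Markov. -/
lemma success_of_errM (hd : 1 ≤ d) {N : ℕ} {η : ℝ} {T : ℕ} {ε : ℝ} (h0 : 0 < ε) (h1 : ε < 1 / 4)
    (hE : ∀ s : E d, ‖s‖ = 1 → errM N η T s ≤ ε ^ 2 / 27) :
    2 / 3 ≤ (kLearner d N η).success T ε := by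
  classical
  have hd0 : 0 < d := by omega
  set L := kLearner d N η with hL
  have hint : ∀ v, Integrable (fun s => L.law T s v *
      (L.output v).real {ŝ | ‖ŝ‖ = 1 ∧ arccos ⟪ŝ, s⟫ ≤ ε}) (sphereM d) := fun v =>
    (@fano_state d hd0 (L.output v) (L.output_prob v) _ (L.bddNN_law T v) ε 1 one_pos le_rfl
      (fun _ _ => measureReal_le_one)).1
  have hmain : ∀ s : E d, ‖s‖ = 1 →
      2 / 3 ≤ ∑ v, L.law T s v * (L.output v).real {ŝ | ‖ŝ‖ = 1 ∧ arccos ⟪ŝ, s⟫ ≤ ε} := by
    intro s hs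
    have hE' := hE s hs
    have hε2 : 0 < ε ^ 2 := by positivity
    have hpt : ∀ v, 1 - (9 / ε ^ 2) * ‖gpt η N v - s‖ ^ 2 ≤
        (L.output v).real {ŝ | ‖ŝ‖ = 1 ∧ arccos ⟪ŝ, s⟫ ≤ ε} := by
      intro v
      by_cases hv : ‖gpt η N v - s‖ ^ 2 ≤ ε ^ 2 / 9
      · have hc := cap_of_close hs h0 h1 hv
        have hm := measurableSet_capSlice' (d := d) ε s
        have hone : (L.output v).real {ŝ | ‖ŝ‖ = 1 ∧ arccos ⟪ŝ, s⟫ ≤ ε} = 1 := by
          show (Measure.dirac (((‖gpt η N v‖⁻¹ : ℝ)) • gpt η N v)).real _ = 1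
          rw [measureReal_def, Measure.dirac_apply' _ hm, Set.indicator_of_mem
            (show ((‖gpt η N v‖⁻¹ : ℝ)) • gpt η N v ∈ {ŝ : E d | ‖ŝ‖ = 1 ∧ arccos ⟪ŝ, s⟫ ≤ ε} from hc)]
          simp
        rw [hone]
        have : 0 ≤ (9 / ε ^ 2) * ‖gpt η N v - s‖ ^ 2 := by positivity
        linarith
      · have h2 : 1 ≤ (9 / ε ^ 2) * ‖gpt η N v - s‖ ^ 2 := by
          push Not at hv
          rw [div_mul_eq_mul_div, le_div_iff₀ hε2]
          linarith
        have h3 : 0 ≤ (L.output v).real {ŝ | ‖ŝ‖ = 1 ∧ arccos ⟪ŝ, s⟫ ≤ ε} := measureReal_nonneg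
        linarith
    calc (2 : ℝ) / 3 ≤ 1 - (9 / ε ^ 2) * errM N η T s := by
          have h5 : (9 / ε ^ 2) * errM N η T s ≤ (9 / ε ^ 2) * (ε ^ 2 / 27) :=
            mul_le_mul_of_nonneg_left hE' (by positivity)
          have h6 : (9 / ε ^ 2) * (ε ^ 2 / 27) = 1 / 3 := by
            field_simp
            norm_num
          linarith
      _ = ∑ v, L.law T s v * (1 - (9 / ε ^ 2) * ‖gpt η N v - s‖ ^ 2) := by
          unfold errM
          simp only [mul_sub, mul_one, Finset.sum_sub_distrib]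
          rw [L.law_sum, Finset.mul_sum]
          congr 1
          refine Finset.sum_congr rfl fun v _ => ?_
          ring
      _ ≤ _ := Finset.sum_le_sum fun v _ => mul_le_mul_of_nonneg_left (hpt v) (L.law_nonneg T s v)
  unfold Learner.success
  have hconst : ∫ _ : E d, (2 / 3 : ℝ) ∂(sphereM d) = 2 / 3 := by simp
  rw [← hconst]
  refine integral_mono_ae (integrable_const _) (integrable_finsetSum _ fun v _ => hint v) ?_
  filter_upwards [sphereM_ae_unit hd0] with s hs
  exact hmain s hs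

/-- The finite precision Kaczmarz learner succeeds with `d log₂ (54 d² / ε)` bits and `4 d log (8 / ε)` samples. -/
theorem kaczmarz_upper (hd : 1 ≤ d) {ε : ℝ} (h0 : 0 < ε) (h1 : ε < 1 / 4) {M T : ℕ}
    (hM : (d : ℝ) * logb 2 (54 * (d : ℝ) ^ 2 / ε) ≤ M) (hT : 4 * (d : ℝ) * log (8 / ε) ≤ T) :
    ∃ (V : Type) (_ : Fintype V) (L : Learner d V),
      Fintype.card V ≤ 2 ^ M ∧ 2 / 3 ≤ L.success T ε := by
  have hd1 : (1 : ℝ) ≤ d := by exact_mod_cast hd
  have hd0 : (0 : ℝ) < d := by linarith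
  set η : ℝ := ε / (18 * (d : ℝ) ^ 2) with hη
  have hη0 : 0 < η := by positivity
  set N : ℕ := ⌈1 / η⌉₊ with hN
  have hinv : 1 / η = 18 * (d : ℝ) ^ 2 / ε := by
    rw [hη]
    field_simp
  have hinv72 : 72 ≤ 1 / η := by
    rw [hinv, le_div_iff₀ h0]
    have : (1 : ℝ) ≤ (d : ℝ) ^ 2 := one_le_pow₀ hd1
    nlinarith
  have hN1 : 1 / η ≤ N := Nat.le_ceil _
  have hN2 : (N : ℝ) < 1 / η + 1 := Nat.ceil_lt_add_one (by positivity)
  have hNη : 1 ≤ N * η := by
    rw [div_le_iff₀ hη0] at hN1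
    exact hN1
  refine ⟨Grid d N, inferInstance, kLearner d N η, ?_, ?_⟩
  · -- the number of states
    have hc : Fintype.card (Grid d N) = (2 * N + 1) ^ d := by simp [Grid]
    rw [hc]
    set B : ℝ := 54 * (d : ℝ) ^ 2 / ε with hB
    have hB0 : 0 < B := by positivity
    have hNB : ((2 * N + 1 : ℕ) : ℝ) ≤ B := by
      have e : B = 3 * (1 / η) := by
        rw [hinv, hB]
        ring
      rw [e]
      push_cast
      linarith
    have h2 : (((2 * N + 1 : ℕ) : ℝ)) ^ d ≤ ((2 : ℕ) : ℝ) ^ M := by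
      calc (((2 * N + 1 : ℕ) : ℝ)) ^ d ≤ B ^ d := pow_le_pow_left₀ (by positivity) hNB d
        _ = (2 : ℝ) ^ (logb 2 B * (d : ℝ)) := by
            rw [Real.rpow_mul (by norm_num), Real.rpow_logb (by norm_num) (by norm_num) hB0,
              Real.rpow_natCast]
        _ ≤ (2 : ℝ) ^ (M : ℝ) := by
            apply Real.rpow_le_rpow_of_exponent_le (by norm_num)
            rw [mul_comm]
            exact hM
        _ = _ := by
            rw [Real.rpow_natCast]
            norm_num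
    exact_mod_cast h2
  · refine success_of_errM hd h0 h1 fun s hs => ?_
    refine (errM_le hd hη0 hNη T hs).trans ?_
    have hx : 0 < 1 / (2 * (d : ℝ)) := by positivity
    have hρ0 : 0 ≤ 1 - 1 / (2 * (d : ℝ)) := by
      have : 1 / (2 * (d : ℝ)) ≤ 1 := by
        rw [div_le_one (by positivity)]
        linarith
      linarith
    have h3 : (1 - 1 / (2 * (d : ℝ))) ^ T ≤ ε ^ 2 / 64 := by
      have h4 : (1 - 1 / (2 * (d : ℝ))) ^ T ≤ (rexp (-(1 / (2 * (d : ℝ))))) ^ T :=
        pow_le_pow_left₀ hρ0 (Real.one_sub_le_exp_neg _) T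
      refine h4.trans ?_
      rw [← Real.exp_nat_mul]
      have h8 : 0 < 8 / ε := by positivity
      have h5 : (T : ℝ) * -(1 / (2 * (d : ℝ))) ≤ -(2 * log (8 / ε)) := by
        have h6 : 2 * log (8 / ε) ≤ (T : ℝ) * (1 / (2 * (d : ℝ))) := by
          rw [mul_one_div, le_div_iff₀ (by positivity)]
          linarith
        linarith
      refine (Real.exp_le_exp.2 h5).trans (le_of_eq ?_)
      rw [Real.exp_neg, mul_comm, Real.exp_mul, Real.exp_log h8]
      norm_num
      field_simp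
      norm_num
    have h7 : 2 * (d : ℝ) * ((1 + 2 * (d : ℝ)) * d * η ^ 2) ≤ ε ^ 2 / 54 := by
      have e : 2 * (d : ℝ) * ((1 + 2 * (d : ℝ)) * d * η ^ 2) =
          ((1 + 2 * (d : ℝ)) / (d : ℝ) ^ 2) * (ε ^ 2 / 162) := by
        rw [hη]
        field_simp
        ring
      rw [e]
      have h8 : (1 + 2 * (d : ℝ)) / (d : ℝ) ^ 2 ≤ 3 := by
        rw [div_le_iff₀ (by positivity)]
        nlinarith
      have h9 : 0 ≤ ε ^ 2 / 162 := by positivity
      calc _ ≤ 3 * (ε ^ 2 / 162) := mul_le_mul_of_nonneg_right h8 h9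
        _ = _ := by ring
    have h10 : 0 ≤ ε ^ 2 := by positivity
    linarith

end Vale.Agent.P309K
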