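import Vale.Agent.P309K.Defs

open MeasureTheory ProbabilityTheory Real Set Filter Topology
open scoped RealInnerProductSpace ENNReal

namespace Vale.Agent.P309K

open Vale.Agent.P309

variable {d : ℕ} {V : Type} [Fintype V]

/-- Tonelli for one output measure: the average over the signal of the output mass of the cap
is the average over the output of the mass of the cap, so at most the largest cap. -/
theorem cap_output (hd : 0 < d) (Q : Measure (E d)) [IsProbabilityMeasure Q] {ε κ : ℝ} (hκ : 0 ≤ κ)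
    (hcap : ∀ ŝ : E d, ‖ŝ‖ = 1 → (sphereM d).real {s | ‖s‖ = 1 ∧ arccos ⟪ŝ, s⟫ ≤ ε} ≤ κ) :
    Integrable (fun s => Q.real {ŝ | ‖ŝ‖ = 1 ∧ arccos ⟪ŝ, s⟫ ≤ ε}) (sphereM d) ∧
    ∫ s, Q.real {ŝ | ‖ŝ‖ = 1 ∧ arccos ⟪ŝ, s⟫ ≤ ε} ∂(sphereM d) ≤ κ := by
  set D : Set (E d × E d) := {p : E d × E d | ‖p.1‖ = 1 ∧ arccos ⟪p.1, p.2⟫ ≤ ε} with hD
  have hDm : MeasurableSet D := measurableSet_capPair ε
  set f : E d → E d → ℝ := fun s ŝ => D.indicator (fun _ => (1 : ℝ)) (ŝ, s) with hf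
  have hfm : Measurable (Function.uncurry f) := by
    have : Measurable fun p : E d × E d => D.indicator (fun _ => (1 : ℝ)) p :=
      measurable_const.indicator hDm
    exact this.comp measurable_swap
  have hfb : Integrable (Function.uncurry f) ((sphereM d).prod Q) := by
    refine Integrable.of_bound hfm.aestronglyMeasurable 1 (Filter.Eventually.of_forall ?_)
    rintro ⟨s, ŝ⟩
    simp only [Function.uncurry, hf, Set.indicator]
    split_ifs <;> simp
  have hslice : ∀ s, ∫ ŝ, f s ŝ ∂Q = Q.real {ŝ | ‖ŝ‖ = 1 ∧ arccos ⟪ŝ, s⟫ ≤ ε} := by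
    intro s
    have hm := measurableSet_capSlice' (d := d) ε s
    have : (fun ŝ => f s ŝ) = {ŝ : E d | ‖ŝ‖ = 1 ∧ arccos ⟪ŝ, s⟫ ≤ ε}.indicator (fun _ => (1 : ℝ)) := by
      funext ŝ
      simp only [hf, Set.indicator, hD, Set.mem_ofPred_eq]
    rw [this, integral_indicator hm, setIntegral_const]
    simp [smul_eq_mul]
  have hslice2 : ∀ ŝ, ∫ s, f s ŝ ∂(sphereM d) =
      (sphereM d).real {s : E d | ‖ŝ‖ = 1 ∧ arccos ⟪ŝ, s⟫ ≤ ε} := by
    intro ŝ
    have hm := measurableSet_capSlice (d := d) ε ŝ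
    have : (fun s => f s ŝ) = {s : E d | ‖ŝ‖ = 1 ∧ arccos ⟪ŝ, s⟫ ≤ ε}.indicator (fun _ => (1 : ℝ)) := by
      funext s
      simp only [hf, Set.indicator, hD, Set.mem_ofPred_eq]
    rw [this, integral_indicator hm, setIntegral_const]
    simp [smul_eq_mul]
  constructor
  · have := hfb.integral_prod_left
    simpa only [Function.uncurry, hslice] using this
  · have hsw := integral_integral_swap hfb
    simp only [hslice, hslice2] at hsw
    rw [hsw]
    have hint : Integrable (fun ŝ => ∫ s, f s ŝ ∂(sphereM d)) Q := hfb.integral_prod_right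
    simp only [hslice2] at hint
    calc _ ≤ ∫ _ : E d, κ ∂Q := integral_mono hint (integrable_const _) (cap_real_le hd hκ hcap)
      _ = κ := by simp

/-- MODULE K2. The success probability is at most the number of states times the largest cap: `law ≤ 1`, Tonelli as in `fano_state`. -/
theorem success_le_card (hd : 0 < d) (L : Learner d V) (T : ℕ) {ε κ : ℝ} (hκ : 0 ≤ κ)
    (hcap : ∀ ŝ : E d, ‖ŝ‖ = 1 → (sphereM d).real {s | ‖s‖ = 1 ∧ arccos ⟪ŝ, s⟫ ≤ ε} ≤ κ) :
    L.success T ε ≤ (Fintype.card V : ℝ) * κ := by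
  have h := fun v => @cap_output d hd (L.output v) (L.output_prob v) ε κ hκ hcap
  unfold Learner.success
  have hint : ∀ v, Integrable (fun s => L.law T s v *
      (L.output v).real {ŝ | ‖ŝ‖ = 1 ∧ arccos ⟪ŝ, s⟫ ≤ ε}) (sphereM d) := by
    intro v
    refine ((h v).1.bdd_mul (c := 1) (L.measurable_law T v).aestronglyMeasurable ?_)
    refine Filter.Eventually.of_forall fun s => ?_
    rw [Real.norm_eq_abs, abs_of_nonneg (L.law_nonneg T s v)]
    exact L.law_le_one T s v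
  rw [integral_finsetSum _ (fun v _ => hint v)]
  calc _ ≤ ∑ _v : V, κ := Finset.sum_le_sum fun v _ => ?_
    _ = _ := by simp
  refine (integral_mono (hint v) (h v).1 fun s => ?_).trans (h v).2
  have h0 : 0 ≤ (L.output v).real {ŝ | ‖ŝ‖ = 1 ∧ arccos ⟪ŝ, s⟫ ≤ ε} := measureReal_nonneg
  have := L.law_le_one T s v
  show L.law T s v * _ ≤ _
  nlinarith

/-- The memory needed to store the answer, whatever the number of samples: `success_le_card`, `cap_bound` with `h = (d - 2) / 2`. -/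
theorem memory_bound (hd : 3 ≤ d) (L : Learner d V) (T : ℕ) {ε : ℝ} (h0 : 0 < ε) (h1 : ε < 1)
    (hs : 2 / 3 ≤ L.success T ε) {M : ℕ} (hV : Fintype.card V ≤ 2 ^ M) :
    ((d : ℝ) - 3) * logb 2 (1 / ε) ≤ (M : ℝ) + d := by
  obtain ⟨h, hh⟩ : ∃ h, h = (d - 2) / 2 := ⟨_, rfl⟩
  have hh1 : 2 * h + 1 < d := by omega
  have hh2 : d ≤ 2 * h + 3 := by omega
  set κ : ℝ := ε ^ (2 * h) * 2 ^ h with hκ_def
  have hκ0 : 0 < κ := by positivity
  have hdr : (d : ℝ) ≤ 2 * h + 3 := by exact_mod_cast hh2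
  have hdr1 : (2 : ℝ) * h + 1 + 1 ≤ (d : ℝ) := by exact_mod_cast hh1
  have hcap : ∀ ŝ : E d, ‖ŝ‖ = 1 → (sphereM d).real {s | ‖s‖ = 1 ∧ arccos ⟪ŝ, s⟫ ≤ ε} ≤ κ := by
    intro ŝ hŝ
    refine (cap_bound hŝ h0 (h := h) hh1).trans ?_
    rw [hκ_def]
    apply mul_le_mul_of_nonneg_left _ (by positivity)
    have hden : 0 < (d : ℝ) - 1 - 2 * h := by linarith
    have hnum : 0 ≤ (d : ℝ) - 2 * h := by linarith
    apply pow_le_pow_left₀ (div_nonneg hnum hden.le)
    rw [div_le_iff₀ hden]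
    linarith
  have hle := success_le_card (by omega) L T hκ0.le hcap
  have hcard : (Fintype.card V : ℝ) ≤ 2 ^ M := by exact_mod_cast hV
  have key : (2 : ℝ) / 3 ≤ 2 ^ (M + h) * ε ^ (2 * h) := by
    calc (2 : ℝ) / 3 ≤ (Fintype.card V : ℝ) * κ := hs.trans hle
      _ ≤ 2 ^ M * κ := mul_le_mul_of_nonneg_right hcard hκ0.le
      _ = _ := by rw [hκ_def, pow_add]; ring
  set A : ℝ := logb 2 (1 / ε) with hA
  have hA0 : 0 ≤ A := Real.logb_nonneg (by norm_num) (by
    rw [le_div_iff₀ h0]; linarith)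
  have hlogε : logb 2 ε = -A := by
    rw [hA, one_div, Real.logb_inv, neg_neg]
  have h1' : logb 2 ((2 : ℝ) / 3) ≤ logb 2 (2 ^ (M + h) * ε ^ (2 * h)) :=
    Real.logb_le_logb_of_le (by norm_num) (by norm_num) key
  have h2' : logb 2 (2 ^ (M + h) * ε ^ (2 * h)) = ((M : ℝ) + h) - 2 * h * A := by
    rw [Real.logb_mul (by positivity) (by positivity), Real.logb_pow, Real.logb_pow, hlogε,
      Real.logb_self_eq_one (by norm_num)]
    push_cast
    ring
  have h3' : (-1 : ℝ) ≤ logb 2 ((2 : ℝ) / 3) := by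
    have e : logb 2 ((1 : ℝ) / 2) = -1 := by
      rw [one_div, Real.logb_inv, Real.logb_self_eq_one (by norm_num)]
    rw [← e]
    exact Real.logb_le_logb_of_le (by norm_num) (by norm_num) (by norm_num)
  have hA' : ((d : ℝ) - 3) * A ≤ 2 * h * A := mul_le_mul_of_nonneg_right (by linarith) hA0
  have hh0 : (0 : ℝ) ≤ h := by positivity
  have hd3 : (3 : ℝ) ≤ d := by exact_mod_cast hd
  linarith

end Vale.Agent.P309K
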