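import Vale.Agent.P309K.Defs

open MeasureTheory ProbabilityTheory Real Set Filter Topology
open scoped RealInnerProductSpace ENNReal

namespace Vale.Agent.P309K

open Vale.Agent.P309

variable {d : ℕ}

lemma measurable_rnd1 (η : ℝ) (N : ℕ) : Measurable (rnd1 η N) := by
  have h1 : Measurable fun t : ℝ => ⌊t / η⌋ := Int.measurable_floor.comp (measurable_id.div_const η)
  have h2 : Measurable fun k : ℤ =>
      (⟨min (2 * N) (k + (N : ℤ)).toNat, by omega⟩ : Fin (2 * N + 1)) := measurable_of_countable _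
  exact h2.comp h1

lemma measurable_rnd (η : ℝ) (N : ℕ) : Measurable (rnd (d := d) η N) := by
  refine measurable_pi_lambda _ fun l => ?_
  exact (measurable_rnd1 η N).comp ((measurable_pi_apply l).comp (MeasurableEquiv.toLp 2 _).symm.measurable)

/-- The rounding error in one coordinate; the clamp can only help, since the target is in the range. -/
lemma rnd1_err {η : ℝ} (hη : 0 < η) {N : ℕ} {a : ℝ} (ha : |a| ≤ N * η) (t : ℝ) :
    |gval η N (rnd1 η N t) - a| ≤ |t - a| + η := by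
  obtain ⟨ha1, ha2⟩ := abs_le.1 ha
  set k : ℤ := ⌊t / η⌋ with hk
  have hk1 : (k : ℝ) ≤ t / η := Int.floor_le _
  have hk2 : t / η < k + 1 := Int.lt_floor_add_one _
  have hk1' : (k : ℝ) * η ≤ t := (le_div_iff₀ hη).1 hk1
  have hk2' : t < ((k : ℝ) + 1) * η := (div_lt_iff₀ hη).1 hk2
  have hval : gval η N (rnd1 η N t) =
      η * (((min (2 * N) (k + (N : ℤ)).toNat : ℕ) : ℝ) - (N : ℝ)) := rfl
  rw [hval]
  rcases lt_or_ge (k + (N : ℤ)) 0 with h | h
  · have h1 : (k + (N : ℤ)).toNat = 0 := Int.toNat_of_nonpos h.le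
    rw [h1, min_eq_right (Nat.zero_le _)]
    have h2 : (k : ℝ) + (N : ℝ) + 1 ≤ 0 := by
      have : k + (N : ℤ) + 1 ≤ 0 := by omega
      exact_mod_cast this
    have h3 : t < -((N : ℝ) * η) := by nlinarith
    have h4 : |η * (((0 : ℕ) : ℝ) - (N : ℝ)) - a| = a + N * η := by
      rw [abs_of_nonpos (by push_cast; nlinarith)]
      push_cast
      ring
    rw [h4]
    have h5 : |t - a| = a - t := by
      rw [abs_of_nonpos (by linarith)]
      ring
    rw [h5]
    linarith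
  · rcases le_or_gt (k + (N : ℤ)) (2 * (N : ℤ)) with h' | h'
    · have h1 : ((min (2 * N) (k + (N : ℤ)).toNat : ℕ) : ℤ) = k + N := by
        rw [Nat.cast_min]
        rw [Int.toNat_of_nonneg h]
        push_cast
        omega
      have h2 : ((min (2 * N) (k + (N : ℤ)).toNat : ℕ) : ℝ) = (k : ℝ) + N := by
        have : (((min (2 * N) (k + (N : ℤ)).toNat : ℕ) : ℤ) : ℝ) = ((k + N : ℤ) : ℝ) := by rw [h1]
        push_cast at this ⊢
        exact this
      rw [h2]
      have h3 : η * ((k : ℝ) + N - N) = (k : ℝ) * η := by ring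
      rw [h3]
      have h4 : |(k : ℝ) * η - t| ≤ η := by
        rw [abs_le]
        constructor <;> nlinarith
      calc |(k : ℝ) * η - a| = |((k : ℝ) * η - t) + (t - a)| := by ring_nf
        _ ≤ |(k : ℝ) * η - t| + |t - a| := abs_add_le _ _
        _ ≤ _ := by linarith
    · have h1 : min (2 * N) (k + (N : ℤ)).toNat = 2 * N := by
        apply min_eq_left
        omega
      rw [h1]
      have h2 : (N : ℝ) + 1 ≤ k := by
        have : (N : ℤ) + 1 ≤ k := by omega
        exact_mod_cast this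
      have h3 : ((N : ℝ) + 1) * η ≤ t := by nlinarith
      have h4 : |η * (((2 * N : ℕ) : ℝ) - (N : ℝ)) - a| = N * η - a := by
        have e : η * (((2 * N : ℕ) : ℝ) - (N : ℝ)) = N * η := by
          push_cast
          ring
        rw [e, abs_of_nonneg (by linarith)]
      rw [h4]
      have h5 : |t - a| = t - a := abs_of_nonneg (by nlinarith)
      rw [h5]
      nlinarith

/-- The rounding error in norm. -/
lemma rnd_sq {η : ℝ} (hη : 0 < η) {N : ℕ} (hN : 1 ≤ N * η) {s : E d} (hs : ‖s‖ ≤ 1) (w : E d)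
    {α : ℝ} (hα : 0 < α) :
    ‖gpt η N (rnd η N w) - s‖ ^ 2 ≤ (1 + α) * ‖w - s‖ ^ 2 + (1 + 1 / α) * d * η ^ 2 := by
  have hco : ∀ l, (gval η N (rnd1 η N (w l)) - s l) ^ 2 ≤
      (1 + α) * (w l - s l) ^ 2 + (1 + 1 / α) * η ^ 2 := by
    intro l
    have h1 : |s l| ≤ N * η := by
      have h2 : |s l| ≤ ‖s‖ := by
        have := PiLp.norm_apply_le (p := 2) s l
        simpa [Real.norm_eq_abs] using this
      linarith
    have h2 := rnd1_err hη h1 (w l)
    have h3 : (gval η N (rnd1 η N (w l)) - s l) ^ 2 ≤ (|w l - s l| + η) ^ 2 := by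
      rw [← sq_abs]
      exact pow_le_pow_left₀ (abs_nonneg _) h2 2
    refine h3.trans ?_
    have h4 : (|w l - s l| + η) ^ 2 = (w l - s l) ^ 2 + 2 * |w l - s l| * η + η ^ 2 := by
      rw [add_sq, sq_abs]
    rw [h4]
    have h5 : 2 * |w l - s l| * η ≤ α * (w l - s l) ^ 2 + (1 / α) * η ^ 2 := by
      have h6 : 0 ≤ (α * |w l - s l| - η) ^ 2 / α := by positivity
      have h7 : (α * |w l - s l| - η) ^ 2 / α =
          α * (w l - s l) ^ 2 - 2 * |w l - s l| * η + (1 / α) * η ^ 2 := by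
        rw [← sq_abs (w l - s l)]
        field_simp
        ring
      linarith
    linarith
  have e1 : ‖gpt η N (rnd η N w) - s‖ ^ 2 = ∑ l, (gval η N (rnd1 η N (w l)) - s l) ^ 2 := by
    rw [EuclideanSpace.real_norm_sq_eq]
    rfl
  have e2 : ‖w - s‖ ^ 2 = ∑ l, (w l - s l) ^ 2 := by
    rw [EuclideanSpace.real_norm_sq_eq]
    rfl
  rw [e1, e2, Finset.mul_sum]
  calc _ ≤ ∑ l : Fin d, ((1 + α) * (w l - s l) ^ 2 + (1 + 1 / α) * η ^ 2) :=
        Finset.sum_le_sum fun l _ => hco l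
    _ = _ := by
      rw [Finset.sum_add_distrib]
      simp
      ring

/-- A point close to a unit vector has a direction close to it. -/
lemma cap_of_close {s z : E d} (hs : ‖s‖ = 1) {ε : ℝ} (h0 : 0 < ε) (h1 : ε < 1 / 4)
    (hz : ‖z - s‖ ^ 2 ≤ ε ^ 2 / 9) :
    ‖((‖z‖⁻¹ : ℝ)) • z‖ = 1 ∧ arccos ⟪((‖z‖⁻¹ : ℝ)) • z, s⟫ ≤ ε := by
  have hr : ε ^ 2 / 9 < 1 := by nlinarith
  have hz0 : z ≠ 0 := by
    rintro rfl
    rw [zero_sub, norm_neg, hs] at hz
    linarith
  have hn : 0 < ‖z‖ := norm_pos_iff.2 hz0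
  constructor
  · rw [norm_smul, norm_inv, norm_norm, inv_mul_cancel₀ hn.ne']
  · set r2 : ℝ := ε ^ 2 / 9 with hr2
    have hexp : ‖z - s‖ ^ 2 = ‖z‖ ^ 2 - 2 * ⟪z, s⟫ + 1 := by
      rw [norm_sub_sq_real, hs]
      ring
    have hin : (‖z‖ ^ 2 + 1 - r2) / 2 ≤ ⟪z, s⟫ := by
      rw [hexp] at hz
      linarith
    have hc : (1 - r2) * ‖z‖ ≤ ⟪z, s⟫ := by
      refine le_trans ?_ hin
      have hr0 : 0 ≤ r2 := by positivity
      nlinarith [sq_nonneg (‖z‖ - (1 - r2)), mul_nonneg (sub_nonneg.2 hr.le) hr0]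
    have hval : 1 - r2 ≤ ⟪((‖z‖⁻¹ : ℝ)) • z, s⟫ := by
      rw [real_inner_smul_left, ← div_eq_inv_mul, le_div_iff₀ hn]
      exact hc
    have hcos : cos ε ≤ 1 - r2 := by
      have hb := Real.cos_bound (x := ε) (by rw [abs_of_pos h0]; linarith)
      have hb2 := (abs_le.1 hb).2
      rw [abs_of_pos h0] at hb2
      have h4 : ε ^ 4 * (5 / 96) ≤ ε ^ 2 * (1 / 4) := by
        have h5 : ε ^ 2 ≤ 1 := by nlinarith
        have h6 : 0 ≤ ε ^ 2 := by positivity
        nlinarith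
      rw [hr2]
      nlinarith
    calc arccos ⟪((‖z‖⁻¹ : ℝ)) • z, s⟫ ≤ arccos (cos ε) :=
          Real.antitone_arccos (hcos.trans hval)
      _ = ε := Real.arccos_cos h0.le (by
          have := Real.pi_gt_three
          linarith)

end Vale.Agent.P309K
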